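import Vale.Agent.P034.Reduce

namespace Vale.Agent.Results.P034.TalagrandThresholds

open Vale.Agent.P034

/-- Talagrand's conjecture: the fractional expectation threshold is at most an absolute
constant times the integral one, and fractional smallness at `p` gives smallness at `p / K`. -/
theorem result : ∃ K : ℝ, 0 < K ∧
    ∀ (X : Type) [Fintype X] [DecidableEq X] [Nonempty X] (F : Finset (Finset X)),
      F.Nonempty → ∅ ∉ F → (∀ A ∈ F, ∀ B : Finset X, A ⊆ B → B ∈ F) →
        qfThr F ≤ K * qThr F ∧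
        ∀ p : ℝ, 0 ≤ p → p ≤ 1 → FracSmall F p → Small F (p / K) := by
  refine ⟨2 ^ 1603, pow_pos two_pos _, ?_⟩
  intro X _ _ _ F _ hne _
  have hmain : ∀ p : ℝ, 0 ≤ p → p ≤ 1 → FracSmall F p → Small F (p / 2 ^ 1603) :=
    fun p h0 h1 h => frac_to_small F hne h0 h1 h
  refine ⟨?_, hmain⟩
  have hK : (0:ℝ) < 2 ^ 1603 := pow_pos two_pos _
  unfold qfThr qThr
  refine csSup_le ⟨0, le_rfl, zero_le_one, ?_⟩ ?_
  · refine ⟨fun S => if S ∈ F then 1 else 0, fun S => by dsimp only; split_ifs <;> norm_num,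
      fun H hH => ?_, ?_⟩
    · exact le_trans (le_of_eq (if_pos hH).symm) (Finset.single_le_sum
        (f := fun S => if S ∈ F then (1:ℝ) else 0)
        (fun S _ => by split_ifs <;> norm_num) (Finset.mem_powerset_self H))
    · refine le_of_eq_of_le (Finset.sum_eq_zero fun S _ => ?_) (by norm_num)
      by_cases hS : S ∈ F
      · have : S.card ≠ 0 := fun hc => hne (Finset.card_eq_zero.mp hc ▸ hS)
        simp [this]
      · simp [hS]
  rintro p ⟨h0, h1, hp⟩
  have hle1 : p / 2 ^ 1603 ≤ 1 :=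
    (div_le_self h0 (one_le_pow₀ one_le_two)).trans h1
  have := le_csSup (s := {r : ℝ | 0 ≤ r ∧ r ≤ 1 ∧ Small F r}) ⟨1, fun r hr => hr.2.1⟩
    (show p / 2 ^ 1603 ∈ _ from ⟨div_nonneg h0 hK.le, hle1, hmain p h0 h1 hp⟩)
  rw [div_le_iff₀ hK] at this
  linarith

end Vale.Agent.Results.P034.TalagrandThresholds
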